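import Vale.Agent.P004N.H449.Cusp
import Vale.Agent.P004N.DefsL

/-!
# P004N: `∑_{n ≤ x} |c n|² ≤ C x²`
-/

open UpperHalfPlane hiding I
open Complex Filter Topology MeasureTheory Set CongruenceSubgroup
open scoped Real MatrixGroups ModularForm Manifold

namespace P004N.H449

variable {N : ℕ} {f : ℍ → ℂ} {c : ℕ → ℂ}

theorem QL_of_QE (h : QE f c) : QL 1 f c := by
  intro z
  have h1 := h z
  have e : (fun m : ℕ => c m * cexp (2 * π * I * m * z / ((1 : ℝ) : ℂ))) =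
      fun m : ℕ => c m * cexp (2 * π * I * m * z) := by
    ext m
    rw [ofReal_one, div_one]
  rw [e]
  exact h1

theorem QE_of_QL (h : QL 1 f c) : QE f c := by
  intro z
  have h1 := h z
  have e : (fun m : ℕ => c m * cexp (2 * π * I * m * z / ((1 : ℝ) : ℂ))) =
      fun m : ℕ => c m * cexp (2 * π * I * m * z) := by
    ext m
    rw [ofReal_one, div_one]
  rwa [e] at h1

theorem s2_cont (h : S2 N f) : Continuous f := h.holo.continuous

/-- **the trivial bound for the square sum** -/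
theorem sq_sum_S2 (hN : 0 < N) (h : S2 N f) (hq : QE f c) : ∃ C : ℝ, 1 ≤ C ∧ ∀ x : ℝ, 1 ≤ x →
    ∑ n ∈ Finset.Icc 1 ⌊x⌋₊, ‖c n‖ ^ 2 ≤ C * x ^ 2 := by
  obtain ⟨C, hC, hb⟩ := vbound hN h
  refine ⟨max 1 (Real.exp (4 * π) * C ^ 2 / 1 ^ 2), le_max_left _ _, fun x hx => ?_⟩
  refine (sq_sum one_pos (s2_cont h) (QL_of_QE hq) hC hb (by linarith)).trans ?_
  gcongr
  exact le_max_right _ _

theorem pfN0N : StN0N := by
  intro M g b ε h
  obtain ⟨C, hC, h1⟩ := sq_sum_S2 h.pos h.s2 h.qe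
  refine ⟨C, hC, fun x hx => ?_⟩
  refine le_trans (le_of_eq ?_) (h1 x hx)
  refine Finset.sum_congr rfl fun n _ => ?_
  rw [norm_real, Real.norm_eq_abs, sq_abs]

end P004N.H449
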