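import Vale.Agent.P004.H26.R.RS5

/-!
# P004N, T3: the theta function `LamK` with one scale, its Mellin transform
-/

open Real MeasureTheory Set Filter Topology Asymptotics

namespace P004N.H449

open Vale.Agent.P004.H26.H392 (W Wt Dat W_nonneg W_anti W_le norm_int integrable_term
  integral_term)

/-- the Rankin-Selberg theta function -/
noncomputable def LamK (κ : ℝ) (b : ℕ → ℝ) (t : ℝ) : ℝ := ∑' k : ℕ, b k * W (k * t / κ)

variable {κ : ℝ} {b : ℕ → ℝ}

theorem term_le (hκ : 0 < κ) (hb : Dat b) (r : ℕ) : ∃ C : ℝ, 0 < C ∧ ∀ (k : ℕ) (t : ℝ), 0 < t →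
    b k * W (k * t / κ) ≤ C * (t ^ r)⁻¹ * (b k * (k : ℝ) ^ (-(r : ℝ))) := by
  obtain ⟨C, hC, h⟩ := W_le r
  refine ⟨C * κ ^ r, by positivity, fun k t ht => ?_⟩
  rcases Nat.eq_zero_or_pos k with rfl | hk
  · rw [hb.zero]; simp
  have hk' : (0 : ℝ) < k := by exact_mod_cast hk
  have h2 := h (k * t / κ) (by positivity)
  have h3 : W (k * t / κ) ≤ C * κ ^ r * ((k * t) ^ r)⁻¹ := by
    have e : C * ((k * t / κ) ^ r)⁻¹ = C * κ ^ r * ((k * t) ^ r)⁻¹ := by
      rw [div_pow, inv_div]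
      ring
    rw [e] at h2
    exact h2
  calc b k * W (k * t / κ) ≤ b k * (C * κ ^ r * ((k * t) ^ r)⁻¹) := by
        gcongr
        exact hb.nonneg k
    _ = _ := by
        rw [Real.rpow_neg hk'.le, Real.rpow_natCast, mul_pow, mul_inv]
        ring

theorem term_nonneg (hb : Dat b) (k : ℕ) (t : ℝ) : 0 ≤ b k * W (k * t / κ) :=
  mul_nonneg (hb.nonneg k) (W_nonneg _)

theorem summable_LamK (hκ : 0 < κ) (hb : Dat b) {t : ℝ} (ht : 0 < t) :
    Summable fun k : ℕ => b k * W (k * t / κ) := by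
  obtain ⟨C, hC, h⟩ := term_le hκ hb 2
  refine Summable.of_nonneg_of_le (fun k => term_nonneg hb k t) (fun k => h k t ht) ?_
  exact (hb.summ ((2 : ℕ) : ℝ) (by norm_num)).mul_left _

theorem LamK_nonneg (hb : Dat b) (t : ℝ) : 0 ≤ LamK κ b t := tsum_nonneg fun k => term_nonneg hb k t

theorem LamK_anti (hκ : 0 < κ) (hb : Dat b) : AntitoneOn (LamK κ b) (Ioi 0) := by
  intro t ht u hu htu
  have ht' : (0 : ℝ) < t := ht
  unfold LamK
  refine (summable_LamK hκ hb hu).tsum_le_tsum (fun k => ?_) (summable_LamK hκ hb ht)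
  have hk : (0 : ℝ) ≤ k := Nat.cast_nonneg k
  have h2 : W (k * u / κ) ≤ W (k * t / κ) := W_anti (by positivity) (by gcongr)
  have := hb.nonneg k
  gcongr

theorem LamK_le (hκ : 0 < κ) (hb : Dat b) {r : ℕ} (hr : 2 ≤ r) : ∃ C : ℝ, 0 < C ∧ ∀ t : ℝ, 0 < t →
    LamK κ b t ≤ C * (t ^ r)⁻¹ := by
  obtain ⟨C, hC, h⟩ := term_le hκ hb r
  have hs := hb.summ (r : ℝ) (by exact_mod_cast hr)
  have h0 : 0 ≤ ∑' k : ℕ, b k * (k : ℝ) ^ (-(r : ℝ)) :=
    tsum_nonneg fun k => mul_nonneg (hb.nonneg k) (by positivity)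
  refine ⟨C * (∑' k : ℕ, b k * (k : ℝ) ^ (-(r : ℝ)) + 1), by positivity, fun t ht => ?_⟩
  unfold LamK
  have h1 := (summable_LamK hκ hb ht).tsum_le_tsum (fun k => h k t ht) (hs.mul_left _)
  rw [tsum_mul_left] at h1
  have h2 : 0 ≤ C * (t ^ r)⁻¹ := by positivity
  nlinarith

theorem locInt (hκ : 0 < κ) (hb : Dat b) (c : ℝ) :
    LocallyIntegrableOn (fun t => ((LamK κ b t + c : ℝ) : ℂ)) (Ioi 0) := by
  rw [locallyIntegrableOn_iff isOpen_Ioi.isLocallyClosed]
  intro K hK hKc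
  have h1 : IntegrableOn (LamK κ b) K := (LamK_anti hκ hb |>.mono hK).integrableOn_isCompact hKc
  have h2 : IntegrableOn (fun t => LamK κ b t + c) K :=
    h1.add (integrableOn_const hKc.measure_lt_top.ne)
  exact h2.ofReal

theorem top (hκ : 0 < κ) (hb : Dat b) (c r : ℝ) :
    (fun t => ((LamK κ b t + c : ℝ) : ℂ) - (c : ℂ)) =O[atTop] (fun t : ℝ => t ^ r) := by
  obtain ⟨n, hn⟩ := exists_nat_ge (max 2 (-r))
  have hn2 : 2 ≤ n := by exact_mod_cast (le_max_left _ _).trans hn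
  have hnr : -r ≤ n := (le_max_right _ _).trans hn
  obtain ⟨C, hC, h⟩ := LamK_le hκ hb hn2
  refine IsBigO.of_bound C ?_
  filter_upwards [eventually_ge_atTop (1 : ℝ)] with t ht
  have ht0 : 0 < t := by linarith
  rw [Complex.ofReal_add, add_sub_cancel_right, Complex.norm_real,
    Real.norm_of_nonneg (LamK_nonneg hb t), Real.norm_of_nonneg (by positivity)]
  refine (h t ht0).trans ?_
  have h3 : (t ^ n)⁻¹ ≤ t ^ r := by
    rw [← Real.rpow_natCast, ← Real.rpow_neg ht0.le]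
    exact Real.rpow_le_rpow_of_exponent_le ht (by linarith)
  gcongr

/-! ### the Mellin transform of `LamK` -/

theorem mellin_LamK (hκ : 0 < κ) (hb : Dat b) {s : ℂ} (hs : 1 < s.re) :
    mellin (fun t => (LamK κ b t : ℂ)) s = LSeries (fun n => (b n : ℂ)) s * (κ : ℂ) ^ s * Wt s := by
  have hs0 : 0 < s.re := by linarith
  set F : ℕ → ℝ → ℂ := fun k t =>
    (t : ℂ) ^ (s - 1) * ((b k * W (k * t / κ) : ℝ) : ℂ) with hF
  set G := ∫ t in Ioi (0 : ℝ), ‖(t : ℂ) ^ (s - 1) * (W t : ℂ)‖ with hG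
  have hG0 : 0 ≤ G := integral_nonneg fun t => norm_nonneg _
  have hFeq : ∀ k : ℕ, ∀ t : ℝ, F k t =
      (b k : ℂ) * ((t : ℂ) ^ (s - 1) * (W (k / κ * t) : ℂ)) := by
    intro k t
    simp only [hF]
    rw [show (k : ℝ) * t / κ = k / κ * t by ring]
    push_cast
    ring
  have hFint : ∀ k : ℕ, IntegrableOn (F k) (Ioi 0) := by
    intro k
    rcases Nat.eq_zero_or_pos k with rfl | hk
    · have : F 0 = fun _ => 0 := by
        ext t
        simp [hF, hb.zero]
      rw [this]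
      exact integrableOn_zero
    have hk' : (0 : ℝ) < k := by exact_mod_cast hk
    have h2 := (integrable_term hs0 (a := (k : ℝ) / κ) (by positivity)).const_mul (b k : ℂ)
    refine h2.congr ?_
    filter_upwards with t
    exact (hFeq k t).symm
  have hnorm : ∀ k : ℕ, ∫ t in Ioi (0 : ℝ), ‖F k t‖ ≤
      (κ ^ s.re * G) * (b k * (k : ℝ) ^ (-s.re)) := by
    intro k
    rcases Nat.eq_zero_or_pos k with rfl | hk
    · have : F 0 = fun _ => 0 := by
        ext t
        simp [hF, hb.zero]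
      simp [this, hb.zero]
    have hk' : (0 : ℝ) < k := by exact_mod_cast hk
    have h3 : ∫ t in Ioi (0 : ℝ), ‖F k t‖ = ∫ t in Ioi (0 : ℝ),
        b k * ‖(t : ℂ) ^ (s - 1) * (W (k / κ * t) : ℂ)‖ := by
      refine setIntegral_congr_fun measurableSet_Ioi fun t _ => ?_
      show ‖F k t‖ = _
      rw [hFeq, norm_mul (b k : ℂ), Complex.norm_real, Real.norm_of_nonneg (hb.nonneg k)]
    rw [h3, integral_const_mul, norm_int (by positivity : (0 : ℝ) < (k : ℝ) / κ),
      Real.div_rpow hk'.le hκ.le, Real.rpow_neg hκ.le, ← hG]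
    apply le_of_eq
    field_simp
  have hsum : Summable fun k => ∫ t in Ioi (0 : ℝ), ‖F k t‖ :=
    Summable.of_nonneg_of_le (fun k => integral_nonneg fun t => norm_nonneg _) hnorm
      ((hb.summ s.re hs).mul_left _)
  have hmain := hasSum_integral_of_summable_integral_norm hFint hsum
  have h4 : mellin (fun t => (LamK κ b t : ℂ)) s = ∫ t in Ioi (0 : ℝ), ∑' k, F k t := by
    unfold mellin
    refine setIntegral_congr_fun measurableSet_Ioi fun t _ => ?_
    simp only [hF, smul_eq_mul]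
    rw [tsum_mul_left]
    unfold LamK
    rw [Complex.ofReal_tsum]
  rw [h4, ← hmain.tsum_eq]
  unfold LSeries
  rw [← tsum_mul_right, ← tsum_mul_right]
  refine tsum_congr fun k => ?_
  rcases Nat.eq_zero_or_pos k with rfl | hk
  · have : F 0 = fun _ => 0 := by
      ext t
      simp [hF, hb.zero]
    simp [this]
  have hk' : (0 : ℝ) < k := by exact_mod_cast hk
  have h5 : ∫ t in Ioi (0 : ℝ), F k t = ∫ t in Ioi (0 : ℝ),
      (b k : ℂ) * ((t : ℂ) ^ (s - 1) * (W (k / κ * t) : ℂ)) :=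
    setIntegral_congr_fun measurableSet_Ioi fun t _ => hFeq k t
  rw [h5, integral_const_mul,
    integral_term hs0 (by positivity : (0 : ℝ) < (k : ℝ) / κ), LSeries.term_of_ne_zero hk.ne']
  have h6 : (((k : ℝ) / κ : ℝ) : ℂ) ^ (-s) = (k : ℂ) ^ (-s) * (κ : ℂ) ^ s := by
    have e : (((k : ℝ) / κ : ℝ) : ℂ) = ((k : ℝ) : ℂ) * ((κ⁻¹ : ℝ) : ℂ) := by
      push_cast; ring
    have e2 : ((κ⁻¹ : ℝ) : ℂ) ^ (-s) = (κ : ℂ) ^ s := by
      rw [Complex.ofReal_inv, Complex.inv_cpow, Complex.cpow_neg, inv_inv]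
      rw [Complex.arg_ofReal_of_nonneg hκ.le]
      exact Real.pi_pos.ne
    rw [e, Complex.mul_cpow_ofReal_nonneg hk'.le (by positivity), e2]
    push_cast
    rfl
  rw [h6, Complex.cpow_neg]
  ring

end P004N.H449
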