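import Vale.Agent.P004N.H449.An1

/-!
# P004N, T3: continuation and the polynomial bound
-/

open Real MeasureTheory Set Filter Topology Asymptotics

namespace P004N.H449

open Vale.Agent.P004.H26.H392 (W Wt Dat W_nonneg UU UU_diff UU_Wt inv_Gamma_le norm_B_le)

variable {κ : ℝ} {b : ℕ → ℝ} {c : ℝ}

/-- the functional equation -/
def FEK (κ : ℝ) (b : ℕ → ℝ) (c : ℝ) : Prop :=
  ∀ t : ℝ, 0 < t → LamK κ b (1 / t) + c = t * (LamK κ b t + c)

/-- the pair -/
noncomputable def pair (hκ : 0 < κ) (hb : Dat b) (hc : FEK κ b c) : WeakFEPair ℂ where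
  f := fun t => ((LamK κ b t + c : ℝ) : ℂ)
  g := fun t => ((LamK κ b t + c : ℝ) : ℂ)
  k := 1
  ε := 1
  f₀ := c
  g₀ := c
  hf_int := locInt hκ hb c
  hg_int := locInt hκ hb c
  hk := one_pos
  hε := one_ne_zero
  h_feq := fun x hx => by
    have hx' : (0 : ℝ) < x := hx
    rw [hc x hx', Real.rpow_one, one_mul, smul_eq_mul]
    push_cast
    ring
  hf_top := fun r => top hκ hb c r
  hg_top := fun r => top hκ hb c r

/-- the completed function, made entire -/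
noncomputable def KK (hκ : 0 < κ) (hb : Dat b) (hc : FEK κ b c) (s : ℂ) : ℂ :=
  s * (s - 1) * (pair hκ hb hc).Λ₀ s + c

theorem KK_diff (hκ : 0 < κ) (hb : Dat b) (hc : FEK κ b c) : Differentiable ℂ (KK hκ hb hc) := by
  unfold KK
  have := (pair hκ hb hc).differentiable_Λ₀
  fun_prop

theorem symm_Λ₀ (hκ : 0 < κ) (hb : Dat b) (hc : FEK κ b c) :
    (pair hκ hb hc).symm.Λ₀ = (pair hκ hb hc).Λ₀ := by
  unfold WeakFEPair.Λ₀
  congr 1
  unfold WeakFEPair.f_modif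
  simp [pair]

theorem KK_symm (hκ : 0 < κ) (hb : Dat b) (hc : FEK κ b c) (s : ℂ) :
    KK hκ hb hc (1 - s) = KK hκ hb hc s := by
  have h := (pair hκ hb hc).functional_equation₀ s
  rw [symm_Λ₀] at h
  have h2 : ((pair hκ hb hc).k : ℂ) - s = 1 - s := by simp [pair]
  have h3 : (pair hκ hb hc).ε = 1 := rfl
  rw [h2, h3, one_smul] at h
  unfold KK
  rw [h]
  ring

theorem KK_eq (hκ : 0 < κ) (hb : Dat b) (hc : FEK κ b c) {s : ℂ} (hs : 1 < s.re) :
    KK hκ hb hc s = s * (s - 1) * (LSeries (fun n => (b n : ℂ)) s * (κ : ℂ) ^ s * Wt s) := by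
  have h1 := (pair hκ hb hc).hasMellin (s := s) (by simpa [pair] using hs)
  have h2 : (fun t => (pair hκ hb hc).f t - (pair hκ hb hc).f₀) = fun t => (LamK κ b t : ℂ) := by
    ext t
    simp [pair]
  rw [h2] at h1
  have h3 := h1.2
  rw [mellin_LamK hκ hb hs] at h3
  have hs0 : s ≠ 0 := by
    rintro rfl
    simp at hs
    linarith
  have hs1 : s ≠ 1 := by
    rintro rfl
    simp at hs
  rw [h3]
  unfold WeakFEPair.Λ KK
  have e1 : (pair hκ hb hc).f₀ = c := rfl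
  have e2 : (pair hκ hb hc).g₀ = c := rfl
  have e3 : (pair hκ hb hc).ε = 1 := rfl
  have e4 : (((pair hκ hb hc).k : ℝ) : ℂ) = 1 := by simp [pair]
  rw [e1, e2, e3, e4, smul_eq_mul, smul_eq_mul]
  have h5 : (1 - s) ≠ 0 := sub_ne_zero.2 (Ne.symm hs1)
  field_simp
  ring

/-! ### the bound in vertical strips -/

theorem Λ₀_bound (hκ : 0 < κ) (hb : Dat b) (hc : FEK κ b c) (x y : ℝ) : ∃ M : ℝ, 0 ≤ M ∧
    ∀ s : ℂ, x ≤ s.re → s.re ≤ y → ‖(pair hκ hb hc).Λ₀ s‖ ≤ M := by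
  have hconv : ∀ s : ℂ, MellinConvergent (pair hκ hb hc).f_modif s := fun s =>
    ((pair hκ hb hc).isStrongFEPair_toStrongFEPair.hasMellin s).1
  have hn : ∀ s : ℂ,
      IntegrableOn (fun t : ℝ => t ^ (s.re - 1) * ‖(pair hκ hb hc).f_modif t‖) (Ioi 0) := by
    intro s
    refine IntegrableOn.congr_fun (hconv s).norm (fun t ht => ?_) measurableSet_Ioi
    have ht' : (0 : ℝ) < t := ht
    simp only [norm_smul]
    rw [Complex.norm_cpow_eq_rpow_re_of_pos ht', Complex.sub_re, Complex.one_re]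
  have hx := hn (x : ℂ)
  have hy := hn (y : ℂ)
  rw [Complex.ofReal_re] at hx hy
  refine ⟨∫ t in Ioi (0 : ℝ), (t ^ (x - 1) * ‖(pair hκ hb hc).f_modif t‖ +
    t ^ (y - 1) * ‖(pair hκ hb hc).f_modif t‖), ?_, fun s h1 h2 => ?_⟩
  · refine setIntegral_nonneg measurableSet_Ioi fun t ht => ?_
    have ht' : (0 : ℝ) < t := ht
    positivity
  · unfold WeakFEPair.Λ₀ mellin
    refine (norm_integral_le_integral_norm _).trans ?_
    refine setIntegral_mono_on (hconv s).norm (hx.add hy) measurableSet_Ioi fun t ht => ?_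
    have ht' : (0 : ℝ) < t := ht
    simp only [norm_smul]
    rw [Complex.norm_cpow_eq_rpow_re_of_pos ht', Complex.sub_re, Complex.one_re, ← add_mul]
    gcongr
    rcases le_total 1 t with h | h
    · have : t ^ (s.re - 1) ≤ t ^ (y - 1) := Real.rpow_le_rpow_of_exponent_le h (by linarith)
      have : 0 ≤ t ^ (x - 1) := by positivity
      linarith
    · have : t ^ (s.re - 1) ≤ t ^ (x - 1) := Real.rpow_le_rpow_of_exponent_ge ht' h (by linarith)
      have : 0 ≤ t ^ (y - 1) := by positivity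
      linarith

/-! ### the entire function -/

/-- `(s - 1) B(s) κ^s`, entire -/
noncomputable def EE (hκ : 0 < κ) (hb : Dat b) (hc : FEK κ b c) (s : ℂ) : ℂ :=
  KK hκ hb hc s * UU s

theorem EE_diff (hκ : 0 < κ) (hb : Dat b) (hc : FEK κ b c) : Differentiable ℂ (EE hκ hb hc) :=
  (KK_diff hκ hb hc).mul UU_diff

theorem EE_eq (hκ : 0 < κ) (hb : Dat b) (hc : FEK κ b c) {s : ℂ} (hs : 1 < s.re) :
    EE hκ hb hc s = (s - 1) * LSeries (fun n => (b n : ℂ)) s * (κ : ℂ) ^ s := by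
  unfold EE
  rw [KK_eq hκ hb hc hs]
  have h := UU_Wt (s := s) (by linarith)
  linear_combination ((s - 1) * LSeries (fun n => (b n : ℂ)) s * (κ : ℂ) ^ s) * h

theorem EE_one (hκ : 0 < κ) (hb : Dat b) (hc : FEK κ b c) : EE hκ hb hc 1 = c * UU 1 := by
  unfold EE KK
  rw [sub_self, mul_zero, zero_mul, zero_add]

/-- the right edge -/
theorem edge_right (hκ : 0 < κ) (hb : Dat b) (hc : FEK κ b c) : ∃ M : ℝ, 0 ≤ M ∧ ∀ s : ℂ,
    s.re = 3 / 2 → ‖EE hκ hb hc s‖ ≤ M * ‖s - 1‖ := by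
  set B := ∑' k : ℕ, b k * (k : ℝ) ^ (-(3 / 2) : ℝ) with hB
  have hB0 : 0 ≤ B := tsum_nonneg fun k => mul_nonneg (hb.nonneg k) (by positivity)
  refine ⟨B * κ ^ (3 / 2 : ℝ), by positivity, fun s hs => ?_⟩
  rw [EE_eq hκ hb hc (by rw [hs]; norm_num), norm_mul, norm_mul]
  have h1 := norm_B_le hb hs
  have h2 : ‖(κ : ℂ) ^ s‖ = κ ^ (3 / 2 : ℝ) := by
    rw [Complex.norm_cpow_eq_rpow_re_of_pos hκ, hs]
  rw [h2]
  calc ‖s - 1‖ * ‖LSeries (fun n => (b n : ℂ)) s‖ * κ ^ (3 / 2 : ℝ)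
      ≤ ‖s - 1‖ * B * κ ^ (3 / 2 : ℝ) := by gcongr
    _ = _ := by ring

/-- the left edge -/
theorem edge_left (hκ : 0 < κ) (hb : Dat b) (hc : FEK κ b c) : ∃ M : ℝ, 0 ≤ M ∧ ∀ s : ℂ,
    s.re = -(1 / 2) → ‖EE hκ hb hc s‖ ≤ M * ‖s‖ * (‖s + 2‖ * ‖s + 1‖) ^ 2 := by
  obtain ⟨M, hM, h⟩ := edge_right hκ hb hc
  refine ⟨M * (π ^ (-2 : ℝ) * (4 * π) ^ (-2 : ℝ)), by positivity, fun s hs => ?_⟩
  have h1 := h (1 - s) (by rw [Complex.sub_re, Complex.one_re, hs]; norm_num)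
  rw [show (1 : ℂ) - s - 1 = -s by ring, norm_neg] at h1
  have hconj : ‖Complex.Gamma (2 - s)‖ = ‖s + 2‖ * ‖s + 1‖ * ‖Complex.Gamma (s + 1)‖ := by
    have e1 : (starRingEnd ℂ) (2 - s) = s + 3 := by
      apply Complex.ext
      · simp [hs]; norm_num
      · simp
    have e2 : ‖Complex.Gamma (2 - s)‖ = ‖Complex.Gamma (s + 3)‖ := by
      rw [← e1, Complex.Gamma_conj, Complex.norm_conj]
    have hs1 : s + 1 ≠ 0 := by
      intro h0
      have := congrArg Complex.re h0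
      simp [hs] at this
      norm_num at this
    have hs2 : s + 2 ≠ 0 := by
      intro h0
      have := congrArg Complex.re h0
      simp [hs] at this
      norm_num at this
    have e3 : Complex.Gamma (s + 3) = (s + 2) * ((s + 1) * Complex.Gamma (s + 1)) := by
      rw [← Complex.Gamma_add_one _ hs1, show s + 1 + 1 = s + 2 by ring,
        ← Complex.Gamma_add_one _ hs2]
      congr 1
      ring
    rw [e2, e3, norm_mul, norm_mul]
    ring
  have hG : Complex.Gamma (s + 1) ≠ 0 := Complex.Gamma_ne_zero_of_re_pos (by simp [hs]; norm_num)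
  have hG2 : Complex.Gamma (2 - s) ≠ 0 := Complex.Gamma_ne_zero_of_re_pos (by simp [hs]; norm_num)
  have hpi : 0 < π := Real.pi_pos
  have n1 : ‖UU s‖ = 1 / 2 * (π ^ (-(1 / 2) : ℝ) * (4 * π) ^ (1 / 2 : ℝ)) *
      (‖Complex.Gamma (s + 1)‖⁻¹) ^ 2 := by
    unfold UU
    rw [norm_mul, norm_mul, norm_mul, norm_pow, norm_inv,
      Complex.norm_cpow_eq_rpow_re_of_pos hpi, Complex.norm_cpow_eq_rpow_re_of_pos (by positivity),
      Complex.add_re, Complex.one_re, hs]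
    norm_num
  have n2 : ‖UU (1 - s)‖ = 1 / 2 * (π ^ (3 / 2 : ℝ) * (4 * π) ^ (5 / 2 : ℝ)) *
      (‖Complex.Gamma (2 - s)‖⁻¹) ^ 2 := by
    unfold UU
    rw [norm_mul, norm_mul, norm_mul, norm_pow, norm_inv,
      Complex.norm_cpow_eq_rpow_re_of_pos hpi, Complex.norm_cpow_eq_rpow_re_of_pos (by positivity),
      Complex.add_re, Complex.sub_re, Complex.one_re, hs, show (1 : ℂ) - s + 1 = 2 - s by ring]
    norm_num
  have h2 : ‖EE hκ hb hc (1 - s)‖ = ‖KK hκ hb hc s‖ * ‖UU (1 - s)‖ := by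
    unfold EE
    rw [norm_mul, KK_symm]
  rw [h2, n2, hconj] at h1
  unfold EE
  rw [norm_mul, n1]
  have g0 : 0 < ‖Complex.Gamma (s + 1)‖ := norm_pos_iff.2 hG
  have g1 : 0 < ‖s + 2‖ * ‖s + 1‖ := by
    have : 0 < ‖s + 2‖ * ‖s + 1‖ * ‖Complex.Gamma (s + 1)‖ := hconj ▸ norm_pos_iff.2 hG2
    exact pos_of_mul_pos_left this g0.le
  have e5 : π ^ (3 / 2 : ℝ) = π ^ (-(1 / 2) : ℝ) * π ^ (2 : ℝ) := by
    rw [← Real.rpow_add hpi]; norm_num
  have e6 : (4 * π) ^ (5 / 2 : ℝ) = (4 * π) ^ (1 / 2 : ℝ) * (4 * π) ^ (2 : ℝ) := by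
    rw [← Real.rpow_add (by positivity)]; norm_num
  rw [e5, e6] at h1
  have q1 : π ^ (-2 : ℝ) = (π ^ (2 : ℝ))⁻¹ := Real.rpow_neg hpi.le 2
  have q2 : (4 * π) ^ (-2 : ℝ) = ((4 * π) ^ (2 : ℝ))⁻¹ := Real.rpow_neg (by positivity) 2
  rw [q1, q2]
  have p2 : 0 < π ^ (2 : ℝ) := by positivity
  have p3 : 0 < (4 * π) ^ (2 : ℝ) := by positivity
  set A := π ^ (-(1 / 2) : ℝ) * (4 * π) ^ (1 / 2 : ℝ) with hA
  have hh : ‖KK hκ hb hc s‖ * (1 / 2 * A * (‖Complex.Gamma (s + 1)‖⁻¹) ^ 2) *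
      ((π ^ (2 : ℝ) * (4 * π) ^ (2 : ℝ)) * ((‖s + 2‖ * ‖s + 1‖)⁻¹) ^ 2) ≤ M * ‖s‖ := by
    refine le_trans (le_of_eq ?_) h1
    rw [hA, mul_inv (‖s + 2‖ * ‖s + 1‖)]
    ring
  have hpos : 0 < (π ^ (2 : ℝ) * (4 * π) ^ (2 : ℝ)) * ((‖s + 2‖ * ‖s + 1‖)⁻¹) ^ 2 := by positivity
  rw [← le_div_iff₀ hpos] at hh
  refine hh.trans (le_of_eq ?_)
  field_simp

/-- **the polynomial bound** -/
theorem EE_bound (hκ : 0 < κ) (hb : Dat b) (hc : FEK κ b c) : ∃ M : ℝ, 0 ≤ M ∧ ∀ s : ℂ,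
    -(1 / 2) ≤ s.re → s.re ≤ 3 / 2 → ‖EE hκ hb hc s‖ ≤ M * ‖s + 2‖ ^ 5 := by
  obtain ⟨M₁, hM₁, h₁⟩ := edge_right hκ hb hc
  obtain ⟨M₂, hM₂, h₂⟩ := edge_left hκ hb hc
  obtain ⟨M₀, hM₀, h₀⟩ := Λ₀_bound hκ hb hc (-(1 / 2)) (3 / 2)
  obtain ⟨CG, hCG, hG⟩ := inv_Gamma_le
  refine ⟨M₁ + M₂, by positivity, fun z hz1 hz2 => ?_⟩
  have hne : ∀ s : ℂ, -(1 / 2) ≤ s.re → s + 2 ≠ 0 := by
    intro s hs h0
    have := congrArg Complex.re h0
    simp at this
    linarith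
  have hn1 : ∀ s : ℂ, -(1 / 2) ≤ s.re → 1 ≤ ‖s + 2‖ := by
    intro s hs
    have h1 := Complex.re_le_norm (s + 2)
    simp at h1
    linarith
  set f : ℂ → ℂ := fun s => EE hκ hb hc s / (s + 2) ^ 5 with hf
  have key : ‖f z‖ ≤ M₁ + M₂ := by
    refine PhragmenLindelof.vertical_strip (a := -(1 / 2)) (b := 3 / 2) (f := f) ?_ ?_ ?_ ?_ hz1 hz2
    · have hd : DifferentiableOn ℂ f {s : ℂ | -(1 / 2) ≤ s.re} := by
        intro s hs
        refine (DifferentiableAt.div (EE_diff hκ hb hc s) (by fun_prop)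
          ?_).differentiableWithinAt
        exact pow_ne_zero _ (hne s hs)
      refine DifferentiableOn.diffContOnCl (hd.mono ?_)
      have : closure (Complex.re ⁻¹' Ioo (-(1 / 2) : ℝ) (3 / 2)) ⊆
          Complex.re ⁻¹' Icc (-(1 / 2) : ℝ) (3 / 2) :=
        closure_minimal (preimage_mono Ioo_subset_Icc_self)
          (isClosed_Icc.preimage Complex.continuous_re)
      intro s hs
      exact (this hs).1
    · refine ⟨1, ?_, 20, ?_⟩
      · rw [lt_div_iff₀ (by norm_num)]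
        linarith [Real.pi_gt_three]
      refine IsBigO.of_bound ((4 * M₀ + |c|) * (1 / 2 * (π ^ (3 / 2 : ℝ) * (4 * π) ^ (5 / 2 : ℝ)) *
        CG ^ 2)) ?_
      rw [eventually_inf_principal]
      have hev : ∀ᶠ s : ℂ in comap (_root_.abs ∘ Complex.im) atTop, (1 : ℝ) ≤ |s.im| :=
        (tendsto_comap.eventually_ge_atTop (1 : ℝ))
      filter_upwards [hev] with s hs hmem
      have hs1 : -(1 / 2) < s.re := hmem.1
      have hs2 : s.re < 3 / 2 := hmem.2
      have hns : ‖s‖ ≤ |s.re| + |s.im| := Complex.norm_le_abs_re_add_abs_im s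
      have hre : |s.re| ≤ 3 / 2 := abs_le.2 ⟨by linarith, by linarith⟩
      rw [Real.norm_of_nonneg (Real.exp_pos _).le]
      have hy : |s.im| ≤ Real.exp |s.im| := by linarith [Real.add_one_le_exp |s.im|]
      have hyy : 1 + |s.im| ≤ Real.exp |s.im| := by linarith [Real.add_one_le_exp |s.im|]
      have n1 : ‖f s‖ ≤ ‖EE hκ hb hc s‖ := by
        rw [hf]
        simp only [norm_div, norm_pow]
        exact div_le_self (norm_nonneg _) (one_le_pow₀ (hn1 s hs1.le))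
      have n2 : ‖KK hκ hb hc s‖ ≤ (4 * M₀ + |c|) * Real.exp |s.im| ^ 2 := by
        unfold KK
        refine (norm_add_le _ _).trans ?_
        rw [norm_mul, norm_mul, Complex.norm_real, Real.norm_eq_abs]
        have hK := h₀ s hs1.le hs2.le
        have a1 : ‖s‖ ≤ 3 / 2 + |s.im| := by linarith
        have a2 : ‖s - 1‖ ≤ 3 / 2 + |s.im| := by
          have := Complex.norm_le_abs_re_add_abs_im (s - 1)
          simp at this
          have h3 : |s.re - 1| ≤ 3 / 2 := abs_le.2 ⟨by linarith, by linarith⟩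
          linarith
        have a3 : ‖s‖ * ‖s - 1‖ ≤ 4 * Real.exp |s.im| ^ 2 := by
          have a4 : 3 / 2 + |s.im| ≤ 2 * Real.exp |s.im| := by
            have := abs_nonneg s.im
            linarith
          calc ‖s‖ * ‖s - 1‖ ≤ (2 * Real.exp |s.im|) * (2 * Real.exp |s.im|) := by
                gcongr
                · linarith
                · linarith
            _ = _ := by ring
        have a5 : 1 ≤ Real.exp |s.im| ^ 2 := by
          have : 1 ≤ Real.exp |s.im| := Real.one_le_exp (abs_nonneg _)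
          exact one_le_pow₀ this
        calc ‖s‖ * ‖s - 1‖ * ‖(pair hκ hb hc).Λ₀ s‖ + |c|
            ≤ (4 * Real.exp |s.im| ^ 2) * M₀ + |c| * Real.exp |s.im| ^ 2 := by
              gcongr
              nlinarith [abs_nonneg c]
          _ = _ := by ring
      have n3 : ‖UU s‖ ≤ 1 / 2 * (π ^ (3 / 2 : ℝ) * (4 * π) ^ (5 / 2 : ℝ)) *
          (CG * Real.exp (π * |s.im|)) ^ 2 := by
        unfold UU
        have hpi : 0 < π := Real.pi_pos
        have hpi1 : 1 ≤ π := by linarith [Real.pi_gt_three]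
        rw [norm_mul, norm_mul, norm_mul, norm_pow, 
          Complex.norm_cpow_eq_rpow_re_of_pos hpi,
          Complex.norm_cpow_eq_rpow_re_of_pos (by positivity), Complex.add_re, Complex.one_re]
        have b1 : ‖(1 / 2 : ℂ)‖ = 1 / 2 := by norm_num
        have b2 : π ^ s.re ≤ π ^ (3 / 2 : ℝ) := Real.rpow_le_rpow_of_exponent_le hpi1 hs2.le
        have b3 : (4 * π) ^ (s.re + 1) ≤ (4 * π) ^ (5 / 2 : ℝ) :=
          Real.rpow_le_rpow_of_exponent_le (by linarith) (by linarith)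
        have b4 := hG (s + 1) (by simp; linarith) (by simp; linarith) (by simpa using hs)
        have b5 : (s + 1).im = s.im := by simp
        rw [b5] at b4
        rw [b1]
        gcongr
      have n4 : ‖EE hκ hb hc s‖ ≤ (4 * M₀ + |c|) * Real.exp |s.im| ^ 2 *
          (1 / 2 * (π ^ (3 / 2 : ℝ) * (4 * π) ^ (5 / 2 : ℝ)) *
          (CG * Real.exp (π * |s.im|)) ^ 2) := by
        unfold EE
        rw [norm_mul]
        gcongr
      refine n1.trans (n4.trans ?_)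
      have e1 : Real.exp |s.im| ^ 2 * Real.exp (π * |s.im|) ^ 2 ≤
          Real.exp (20 * Real.exp (1 * |s.im|)) := by
        rw [← Real.exp_nat_mul, ← Real.exp_nat_mul, ← Real.exp_add]
        apply Real.exp_le_exp.2
        have hpi4 : π ≤ 4 := Real.pi_le_four
        have := abs_nonneg s.im
        rw [one_mul]
        push_cast
        nlinarith
      have hcoef : 0 ≤ (4 * M₀ + |c|) * (1 / 2 * (π ^ (3 / 2 : ℝ) * (4 * π) ^ (5 / 2 : ℝ)) *
        CG ^ 2) := by positivity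
      calc _ = (4 * M₀ + |c|) * (1 / 2 * (π ^ (3 / 2 : ℝ) * (4 * π) ^ (5 / 2 : ℝ)) *
            CG ^ 2) * (Real.exp |s.im| ^ 2 * Real.exp (π * |s.im|) ^ 2) := by ring
        _ ≤ _ := by gcongr
    · intro s hs
      have h3 := h₂ s hs
      have h4 := hn1 s hs.ge
      rw [hf]
      simp only [norm_div, norm_pow]
      rw [div_le_iff₀ (by positivity)]
      refine h3.trans ?_
      have h5 : ‖s‖ ≤ ‖s + 2‖ := by
        rw [Complex.norm_def, Complex.norm_def]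
        apply Real.sqrt_le_sqrt
        rw [Complex.normSq_apply, Complex.normSq_apply]
        simp [hs]
        norm_num
      have h6 : ‖s + 1‖ ≤ ‖s + 2‖ := by
        rw [Complex.norm_def, Complex.norm_def]
        apply Real.sqrt_le_sqrt
        rw [Complex.normSq_apply, Complex.normSq_apply]
        simp [hs]
        norm_num
      calc M₂ * ‖s‖ * (‖s + 2‖ * ‖s + 1‖) ^ 2 ≤ M₂ * ‖s + 2‖ * (‖s + 2‖ * ‖s + 2‖) ^ 2 := by gcongr
        _ = M₂ * ‖s + 2‖ ^ 5 := by ring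
        _ ≤ (M₁ + M₂) * ‖s + 2‖ ^ 5 := by gcongr; linarith
    · intro s hs
      have h3 := h₁ s hs
      have h4 := hn1 s (by rw [hs]; norm_num)
      rw [hf]
      simp only [norm_div, norm_pow]
      rw [div_le_iff₀ (by positivity)]
      refine h3.trans ?_
      have h5 : ‖s - 1‖ ≤ ‖s + 2‖ := by
        rw [Complex.norm_def, Complex.norm_def]
        apply Real.sqrt_le_sqrt
        rw [Complex.normSq_apply, Complex.normSq_apply]
        simp [hs]
        norm_num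
      have h6 : ‖s + 2‖ ≤ ‖s + 2‖ ^ 5 := le_self_pow₀ h4 (by norm_num)
      calc M₁ * ‖s - 1‖ ≤ M₁ * ‖s + 2‖ ^ 5 := by gcongr; linarith
        _ ≤ (M₁ + M₂) * ‖s + 2‖ ^ 5 := by gcongr; linarith
  rw [hf] at key
  simp only [norm_div, norm_pow] at key
  rwa [div_le_iff₀ (by have := hn1 z hz1; positivity)] at key

end P004N.H449
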