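import Vale.Agent.P004N.Defs

/-!
# P004N: a cusp form `S2 N f` as a Mathlib cusp form, boundedness of `y |f|`
-/

open UpperHalfPlane CongruenceSubgroup Matrix.SpecialLinearGroup
open scoped MatrixGroups ModularForm Manifold Real

namespace P004N.H449

variable {N : ℕ} {f : ℍ → ℂ}

/-- an `S2` function as a Mathlib cusp form -/
noncomputable def toCF [NeZero N] (h : S2 N f) : CuspForm ((Gamma0 N).map (mapGL ℝ)) 2 where
  toFun := f
  slash_action_eq' A hA := by
    obtain ⟨A, hA', rfl⟩ := hA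
    exact h.slash A hA'
  holo' := h.holo
  zero_at_cusps' {c} hc := by
    rw [Subgroup.IsArithmetic.isCusp_iff_isCusp_SL2Z] at hc
    rw [OnePoint.isZeroAt_iff_forall_SL2Z hc]
    intro γ _
    exact h.zero γ

theorem toCF_coe [NeZero N] (h : S2 N f) : ⇑(toCF h) = f := rfl

/-- **`y |f|` is bounded** -/
theorem vbound (hN : 0 < N) (h : S2 N f) : ∃ C : ℝ, 0 < C ∧ ∀ z : ℍ, ‖f z‖ * z.im ≤ C := by
  have : NeZero N := ⟨hN.ne'⟩
  obtain ⟨C, hC⟩ := CuspFormClass.exists_bound (toCF h)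
  refine ⟨|C| + 1, by positivity, fun z => ?_⟩
  have h1 := hC z
  rw [toCF_coe] at h1
  have h2 : ((2 : ℤ) / 2 : ℝ) = 1 := by norm_num
  rw [h2, Real.rpow_one, le_div_iff₀ z.im_pos] at h1
  linarith [le_abs_self C]

end P004N.H449
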