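import Vale.Agent.P004N.H449.Bd

/-!
# P004N: Fourier expansion at a cusp, Parseval, square sums (complex coefficients)
-/

open UpperHalfPlane hiding I
open Complex Filter Topology MeasureTheory Set CongruenceSubgroup
open scoped Real MatrixGroups ModularForm Manifold

namespace P004N.H449

/-! ### Parseval for exponential sums -/

theorem int_exp (n : ℤ) :
    ∫ x in (0 : ℝ)..1, cexp (2 * π * I * n * x) = if n = 0 then 1 else 0 := by
  by_cases hn : n = 0
  · simp [hn]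
  · rw [if_neg hn]
    have hc : (2 * π * I * n : ℂ) ≠ 0 :=
      mul_ne_zero two_pi_I_ne_zero (Int.cast_ne_zero.2 hn)
    rw [integral_exp_mul_complex hc]
    have h1 : cexp (2 * π * I * n * ((1 : ℝ) : ℂ)) = 1 := by
      rw [show 2 * (π : ℂ) * I * n * ((1 : ℝ) : ℂ) = n * (2 * π * I) by push_cast; ring]
      exact exp_int_mul_two_pi_mul_I n
    rw [h1]
    simp

/-- **Parseval** for an absolutely convergent exponential sum -/
theorem pars_gen {c : ℕ → ℂ} (hc : Summable fun n => ‖c n‖) :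
    Summable (fun n => ‖c n‖ ^ 2) ∧
      ∫ x in (0 : ℝ)..1, ‖∑' n : ℕ, c n * cexp (2 * π * I * n * x)‖ ^ 2 =
        ∑' n, ‖c n‖ ^ 2 := by
  have hsq : Summable (fun n => ‖c n‖ ^ 2) := by
    have h1 : Summable fun p : ℕ × ℕ => ‖c p.1‖ * ‖c p.2‖ := hc.mul_of_nonneg hc
      (fun _ => norm_nonneg _) (fun _ => norm_nonneg _)
    have h2 := h1.comp_injective (i := fun n : ℕ => (n, n)) (fun a b h => (Prod.mk.inj h).1)
    refine h2.congr fun n => ?_
    simp only [Function.comp_apply]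
    rw [pow_two]
  refine ⟨hsq, ?_⟩
  -- the double series
  set G : ℕ × ℕ → ℝ → ℂ := fun p x =>
    (c p.1 * (starRingEnd ℂ) (c p.2)) * cexp (2 * π * I * ((p.1 : ℤ) - (p.2 : ℤ) : ℤ) * x) with hG
  have hnorm : ∀ (m : ℤ) (x : ℝ), ‖cexp (2 * π * I * m * x)‖ = 1 := by
    intro m x
    rw [norm_exp]
    simp
  have hGn : ∀ p x, ‖G p x‖ = ‖c p.1‖ * ‖c p.2‖ := by
    intro p x
    simp only [hG]
    rw [norm_mul, hnorm, mul_one, norm_mul, RCLike.norm_conj]
  have hs1 : ∀ x : ℝ, Summable fun n : ℕ => ‖c n * cexp (2 * π * I * n * x)‖ := by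
    intro x
    refine hc.congr fun n => ?_
    have h := hnorm n x
    push_cast at h
    rw [norm_mul, h, mul_one]
  have hpt : ∀ x : ℝ, ((‖∑' n : ℕ, c n * cexp (2 * π * I * n * x)‖ ^ 2 : ℝ) : ℂ) =
      ∑' p, G p x := by
    intro x
    have h1 : ∑' n : ℕ, (starRingEnd ℂ) (c n) * cexp (-(2 * π * I * n * x)) =
        (starRingEnd ℂ) (∑' n : ℕ, c n * cexp (2 * π * I * n * x)) := by
      rw [conj_tsum]
      refine tsum_congr fun n => ?_
      rw [map_mul, ← exp_conj]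
      congr 2
      simp only [map_mul, conj_ofReal, conj_I, map_natCast, map_ofNat]
      ring
    have hs2 : Summable fun n : ℕ => ‖(starRingEnd ℂ) (c n) * cexp (-(2 * π * I * n * x))‖ := by
      refine hc.congr fun n => ?_
      have h := hnorm (-n) x
      push_cast at h
      rw [show 2 * (π : ℂ) * I * -(n : ℂ) * x = -(2 * π * I * n * x) by ring] at h
      rw [norm_mul, h, mul_one, RCLike.norm_conj]
    rw [← normSq_eq_norm_sq, ← mul_conj, ← h1, tsum_mul_tsum_of_summable_norm (hs1 x) hs2]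
    refine tsum_congr fun p => ?_
    simp only [hG]
    push_cast
    rw [show 2 * (π : ℂ) * I * ((p.1 : ℂ) - p.2) * x =
      2 * π * I * p.1 * x + -(2 * π * I * p.2 * x) by ring, exp_add]
    ring
  have hint : ∀ p, ∫ x in (0 : ℝ)..1, G p x = if p.1 = p.2 then ((‖c p.1‖ ^ 2 : ℝ) : ℂ) else 0 := by
    intro p
    simp only [hG]
    rw [intervalIntegral.integral_const_mul, int_exp]
    by_cases h : p.1 = p.2
    · rw [if_pos h, if_pos (by rw [h, sub_self]), mul_one, h, mul_conj, normSq_eq_norm_sq]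
    · rw [if_neg h, if_neg (by omega), mul_zero]
  have hsum : HasSum (fun p => ∫ x in (0 : ℝ)..1, G p x) (∫ x in (0 : ℝ)..1, ∑' p, G p x) := by
    simp only [intervalIntegral.integral_of_le (zero_le_one' ℝ)]
    refine hasSum_integral_of_summable_integral_norm (fun p => ?_) ?_
    · have hcont : Continuous (G p) := by
        simp only [hG]
        fun_prop
      exact (hcont.integrableOn_Icc).mono_set Ioc_subset_Icc_self
    · simp only [hGn]
      have h1 : Summable fun p : ℕ × ℕ => ‖c p.1‖ * ‖c p.2‖ := hc.mul_of_nonneg hc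
        (fun _ => norm_nonneg _) (fun _ => norm_nonneg _)
      refine h1.congr fun p => ?_
      simp
  have htot : ∫ x in (0 : ℝ)..1, ∑' p, G p x = ((∑' n, ‖c n‖ ^ 2 : ℝ) : ℂ) := by
    rw [← hsum.tsum_eq]
    simp only [hint]
    have hinj : Function.Injective (fun n : ℕ => (n, n)) := fun a b h => (Prod.mk.inj h).1
    rw [← hinj.tsum_eq]
    · simp only [if_true]
      rw [ofReal_tsum]
    · intro p hp
      rw [Function.mem_support] at hp
      by_cases h : p.1 = p.2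
      · exact ⟨p.1, Prod.ext rfl h⟩
      · exact absurd (if_neg h) hp
  have hfin : ((∫ x in (0 : ℝ)..1, ‖∑' n : ℕ, c n * cexp (2 * π * I * n * x)‖ ^ 2 : ℝ) : ℂ) =
      ((∑' n, ‖c n‖ ^ 2 : ℝ) : ℂ) := by
    rw [← htot, ← intervalIntegral.integral_ofReal]
    refine intervalIntegral.integral_congr fun x _ => ?_
    exact hpt x
  exact_mod_cast hfin

/-! ### expansions with period `L` -/

/-- `g z = ∑ c m e(m z / L)` -/
def QL (L : ℝ) (g : ℍ → ℂ) (c : ℕ → ℂ) : Prop :=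
  ∀ z : ℍ, HasSum (fun m : ℕ => c m * cexp (2 * π * I * m * z / L)) (g z)

theorem expand {L : ℝ} (hL : 0 < L) {g : ℍ → ℂ} (hg : MDiff g)
    (hper : ∀ z w : ℍ, (w : ℂ) = z + L → g w = g z) (hz : IsZeroAtImInfty g) :
    ∃ c : ℕ → ℂ, c 0 = 0 ∧ QL L g c := by
  have hp : Function.Periodic (g ∘ ofComplex) (L : ℂ) := by
    intro w
    by_cases hw : 0 < w.im
    · have hw' : 0 < (w + (L : ℂ)).im := by simpa using hw
      simp only [Function.comp_apply]
      refine hper _ _ ?_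
      rw [ofComplex_apply_of_im_pos hw, ofComplex_apply_of_im_pos hw']
    · have hw' : ¬ 0 < (w + (L : ℂ)).im := by simpa using hw
      simp only [Function.comp_apply]
      rw [ofComplex_apply_of_im_nonpos (not_lt.1 hw), ofComplex_apply_of_im_nonpos (not_lt.1 hw')]
  refine ⟨fun m => (qExpansion L g).coeff m, ?_, fun z => ?_⟩
  · show (qExpansion L g).coeff 0 = 0
    rw [qExpansion_coeff_zero hL (analyticAt_cuspFunction_zero hL hp hg hz.isBoundedAtImInfty) hp,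
      hz.valueAtInfty_eq_zero]
  · have h := hasSum_qExpansion hL hp hg hz.isBoundedAtImInfty z
    have e : (fun m : ℕ => (qExpansion L g).coeff m * cexp (2 * π * I * m * z / L)) =
        fun m : ℕ => (qExpansion L g).coeff m • Function.Periodic.qParam L z ^ m := by
      ext m
      rw [smul_eq_mul, Function.Periodic.qParam, ← exp_nat_mul]
      congr 2
      ring
    rw [e]
    exact h

/-- the point `x + i y` -/
noncomputable def pt (y : ℝ) (hy : 0 < y) (x : ℝ) : ℍ := ⟨x + y * I, by simpa using hy⟩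

theorem pt_coe {y : ℝ} (hy : 0 < y) (x : ℝ) : (pt y hy x : ℂ) = x + y * I := rfl

theorem pt_im {y : ℝ} (hy : 0 < y) (x : ℝ) : (pt y hy x).im = y := by
  show ((x : ℂ) + y * I).im = y
  simp

theorem pt_re {y : ℝ} (hy : 0 < y) (x : ℝ) : (pt y hy x).re = x := by
  show ((x : ℂ) + y * I).re = x
  simp

theorem continuous_pt {y : ℝ} (hy : 0 < y) : Continuous (pt y hy) := by
  refine UpperHalfPlane.isEmbedding_coe.continuous_iff.2 ?_
  have : ((fun z : ℍ => (z : ℂ)) ∘ pt y hy) = fun x : ℝ => (x : ℂ) + y * I := rfl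
  rw [this]
  fun_prop

variable {L : ℝ} {g : ℍ → ℂ} {c : ℕ → ℂ}

theorem term_eq (hL : 0 < L) {y : ℝ} (hy : 0 < y) (x : ℝ) (m : ℕ) :
    c m * cexp (2 * π * I * m * (pt y hy (L * x) : ℂ) / L) =
    (c m * (Real.exp (-(2 * π * m * y / L)) : ℝ)) * cexp (2 * π * I * m * x) := by
  have hL' : (L : ℂ) ≠ 0 := by exact_mod_cast hL.ne'
  rw [pt_coe]
  push_cast
  rw [mul_assoc (c m), ← exp_add]
  congr 2
  field_simp
  linear_combination (m * y) * I_sq

theorem summable_norm (hL : 0 < L) (h : QL L g c) {y : ℝ} (hy : 0 < y) :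
    Summable fun m : ℕ => ‖c m * (Real.exp (-(2 * π * m * y / L)) : ℝ)‖ := by
  have h1 := (h (pt y hy (L * 0))).summable.norm
  refine h1.congr fun m => ?_
  rw [term_eq hL hy, ofReal_zero, mul_zero, exp_zero, mul_one]

/-- **Parseval at height `y`** -/
theorem pars (hL : 0 < L) (h : QL L g c) {y : ℝ} (hy : 0 < y) :
    Summable (fun m : ℕ => ‖c m‖ ^ 2 * Real.exp (-(4 * π * m * y / L))) ∧
      ∫ x in (0 : ℝ)..L, ‖g (pt y hy x)‖ ^ 2 =
        L * ∑' m : ℕ, ‖c m‖ ^ 2 * Real.exp (-(4 * π * m * y / L)) := by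
  obtain ⟨h1, h2⟩ := pars_gen (summable_norm hL h hy)
  have h3 : ∀ m : ℕ, ‖c m * (Real.exp (-(2 * π * m * y / L)) : ℝ)‖ ^ 2 =
      ‖c m‖ ^ 2 * Real.exp (-(4 * π * m * y / L)) := by
    intro m
    rw [norm_mul, mul_pow, norm_real, Real.norm_of_nonneg (Real.exp_pos _).le, ← Real.exp_nat_mul]
    congr 2
    push_cast
    ring
  simp only [h3] at h1 h2
  refine ⟨h1, ?_⟩
  rw [← h2]
  have h4 : ∀ x : ℝ, ∑' m : ℕ, (c m * (Real.exp (-(2 * π * m * y / L)) : ℝ)) *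
      cexp (2 * π * I * m * x) = g (pt y hy (L * x)) := by
    intro x
    rw [← (h (pt y hy (L * x))).tsum_eq]
    exact tsum_congr fun m => (term_eq hL hy x m).symm
  simp only [h4]
  have h5 := intervalIntegral.integral_comp_mul_left (a := 0) (b := 1)
    (fun x => ‖g (pt y hy x)‖ ^ 2) hL.ne'
  rw [h5, mul_zero, mul_one, smul_eq_mul]
  field_simp

theorem cont_g {g : ℍ → ℂ} (hg : Continuous g) {y : ℝ} (hy : 0 < y) :
    Continuous fun x : ℝ => ‖g (pt y hy x)‖ ^ 2 :=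
  ((hg.comp (continuous_pt hy)).norm).pow 2

/-- **`∑_{m ≤ X} |c m|² ≤ C X²`** -/
theorem sq_sum (hL : 0 < L) (hg : Continuous g) (h : QL L g c) {C : ℝ} (hC : 0 < C)
    (hb : ∀ z : ℍ, ‖g z‖ * z.im ≤ C) {X : ℝ} (hX : 0 < X) :
    ∑ m ∈ Finset.Icc 1 ⌊X⌋₊, ‖c m‖ ^ 2 ≤ Real.exp (4 * π) * C ^ 2 / L ^ 2 * X ^ 2 := by
  have hy : 0 < L / X := by positivity
  obtain ⟨h1, h2⟩ := pars hL h hy
  have h3 : ∫ x in (0 : ℝ)..L, ‖g (pt (L / X) hy x)‖ ^ 2 ≤ L * (C * X / L) ^ 2 := by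
    have h4 : ∀ x : ℝ, ‖g (pt (L / X) hy x)‖ ^ 2 ≤ (C * X / L) ^ 2 := by
      intro x
      have h5 := hb (pt (L / X) hy x)
      rw [pt_im, ← le_div_iff₀ hy] at h5
      have h6 : C / (L / X) = C * X / L := by field_simp
      rw [h6] at h5
      exact pow_le_pow_left₀ (norm_nonneg _) h5 2
    have h7 : ∫ x in (0 : ℝ)..L, ‖g (pt (L / X) hy x)‖ ^ 2 ≤
        ∫ x in (0 : ℝ)..L, (C * X / L) ^ 2 :=
      intervalIntegral.integral_mono_on hL.le ((cont_g hg hy).intervalIntegrable _ _) (by simp)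
        fun x _ => h4 x
    simpa using h7
  rw [h2] at h3
  have h3' := le_of_mul_le_mul_left h3 hL
  have h10 : ∑ m ∈ Finset.Icc 1 ⌊X⌋₊, ‖c m‖ ^ 2 * Real.exp (-(4 * π * m * (L / X) / L)) ≤
      (C * X / L) ^ 2 :=
    (h1.sum_le_tsum _ fun m _ => by positivity).trans h3'
  have h11 : ∑ m ∈ Finset.Icc 1 ⌊X⌋₊, ‖c m‖ ^ 2 * Real.exp (-(4 * π)) ≤
      ∑ m ∈ Finset.Icc 1 ⌊X⌋₊, ‖c m‖ ^ 2 * Real.exp (-(4 * π * m * (L / X) / L)) := by
    refine Finset.sum_le_sum fun m hm => ?_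
    rw [Finset.mem_Icc] at hm
    have h12 : (m : ℝ) ≤ X := (Nat.le_floor_iff hX.le).1 hm.2
    refine mul_le_mul_of_nonneg_left (Real.exp_le_exp.2 ?_) (by positivity)
    have h14 := Real.pi_pos
    have h15 : 4 * π * m * (L / X) / L = 4 * π * (m / X) := by field_simp
    have h16 : (m : ℝ) / X ≤ 1 := by rwa [div_le_one hX]
    rw [h15]
    nlinarith
  rw [← Finset.sum_mul] at h11
  have h15 : Real.exp (4 * π) * Real.exp (-(4 * π)) = 1 := by
    rw [← Real.exp_add, add_neg_cancel, Real.exp_zero]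
  calc ∑ m ∈ Finset.Icc 1 ⌊X⌋₊, ‖c m‖ ^ 2
      = Real.exp (4 * π) * ((∑ m ∈ Finset.Icc 1 ⌊X⌋₊, ‖c m‖ ^ 2) * Real.exp (-(4 * π))) := by
        rw [mul_comm (∑ m ∈ Finset.Icc 1 ⌊X⌋₊, ‖c m‖ ^ 2), ← mul_assoc, h15, one_mul]
    _ ≤ Real.exp (4 * π) * (C * X / L) ^ 2 :=
        mul_le_mul_of_nonneg_left (h11.trans h10) (Real.exp_pos _).le
    _ = _ := by ring

/-- the expansion is unique -/
theorem QL_unique (hL : 0 < L) {c' : ℕ → ℂ} (h : QL L g c) (h' : QL L g c') : c = c' := by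
  have h1 : QL L (fun _ => 0) (fun m => c m - c' m) := by
    intro z
    have := (h z).sub (h' z)
    rw [sub_self] at this
    have e : (fun m : ℕ => (c m - c' m) * cexp (2 * π * I * m * z / L)) =
        fun m : ℕ => c m * cexp (2 * π * I * m * z / L) - c' m * cexp (2 * π * I * m * z / L) := by
      ext m
      ring
    rw [e]
    exact this
  obtain ⟨h2, h3⟩ := pars hL h1 one_pos
  have h4 : ∑' m : ℕ, ‖c m - c' m‖ ^ 2 * Real.exp (-(4 * π * m * 1 / L)) = 0 := by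
    have : (0 : ℝ) = L * ∑' m : ℕ, ‖c m - c' m‖ ^ 2 * Real.exp (-(4 * π * m * 1 / L)) := by
      rw [← h3]
      simp
    rcases mul_eq_zero.1 this.symm with h5 | h5
    · exact absurd h5 hL.ne'
    · exact h5
  ext m
  have h5 : ‖c m - c' m‖ ^ 2 * Real.exp (-(4 * π * m * 1 / L)) ≤ 0 := by
    rw [← h4]
    exact h2.le_tsum m fun j _ => by positivity
  have h6 : ‖c m - c' m‖ ^ 2 = 0 := by
    have h7 := Real.exp_pos (-(4 * π * m * 1 / L))
    have h8 : 0 ≤ ‖c m - c' m‖ ^ 2 := by positivity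
    nlinarith
  have h9 : c m - c' m = 0 := by simpa using h6
  exact sub_eq_zero.1 h9

/-! ### the translates of a cusp form of level `N` -/

variable {N : ℕ} {f : ℍ → ℂ}

theorem slash_mdiff (h : S2 N f) (γ : SL(2, ℤ)) : MDiff (f ∣[(2 : ℤ)] γ) := by
  exact h.holo.slash 2 _

theorem norm_slash (f : ℍ → ℂ) (γ : SL(2, ℤ)) (z : ℍ) :
    ‖(f ∣[(2 : ℤ)] γ) z‖ * z.im = ‖f (γ • z)‖ * (γ • z).im := by
  rw [ModularForm.SL_slash_apply, norm_mul, norm_zpow, ModularGroup.im_smul_eq_div_normSq,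
    Complex.normSq_eq_norm_sq]
  have h0 : ‖denom (γ : GL (Fin 2) ℝ) z‖ ≠ 0 := by
    rw [norm_ne_zero_iff]
    exact denom_ne_zero _ _
  rw [zpow_neg]
  norm_cast
  field_simp

theorem slash_bound (hN : 0 < N) (h : S2 N f) : ∃ C : ℝ, 0 < C ∧ ∀ (γ : SL(2, ℤ)) (z : ℍ),
    ‖(f ∣[(2 : ℤ)] γ) z‖ * z.im ≤ C := by
  obtain ⟨C, hC, h1⟩ := vbound hN h
  exact ⟨C, hC, fun γ z => by rw [norm_slash]; exact h1 _⟩

theorem T_pow_mem (γ : SL(2, ℤ)) : γ * ModularGroup.T ^ (N : ℤ) * γ⁻¹ ∈ Gamma0 N := by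
  have h1 := ModularGroup_T_pow_mem_Gamma N N dvd_rfl
  rw [Int.natAbs_natCast] at h1
  have h2 := (Gamma_normal N).conj_mem _ h1 γ
  rw [Gamma_mem] at h2
  rw [Gamma0_mem]
  exact h2.2.2.1

theorem slash_per (h : S2 N f) (γ : SL(2, ℤ)) (z w : ℍ) (hw : (w : ℂ) = z + (N : ℝ)) :
    (f ∣[(2 : ℤ)] γ) w = (f ∣[(2 : ℤ)] γ) z := by
  have h1 := h.slash _ (T_pow_mem (N := N) γ)
  have h2 : f ∣[(2 : ℤ)] (γ * ModularGroup.T ^ (N : ℤ)) = f ∣[(2 : ℤ)] γ := by
    have : γ * ModularGroup.T ^ (N : ℤ) = (γ * ModularGroup.T ^ (N : ℤ) * γ⁻¹) * γ := by group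
    rw [this, SlashAction.slash_mul, h1]
  have h3 : w = ModularGroup.T ^ (N : ℤ) • z := by
    ext1
    rw [ModularGroup.coe_T_zpow_smul_eq, hw]
    push_cast
    rfl
  have h4 := congrFun h2 z
  rw [SlashAction.slash_mul, ModularForm.SL_slash_apply] at h4
  rw [h3, ← h4]
  have h5 : denom ((ModularGroup.T ^ (N : ℤ) : SL(2, ℤ)) : GL (Fin 2) ℝ) z = 1 := by
    rw [ModularGroup.denom_apply, ModularGroup.coe_T_zpow]
    simp
  rw [h5]
  simp

/-- **the expansion of `f|γ`** -/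
theorem slash_expand (hN : 0 < N) (h : S2 N f) (γ : SL(2, ℤ)) :
    ∃ c : ℕ → ℂ, c 0 = 0 ∧ QL N (f ∣[(2 : ℤ)] γ) c :=
  expand (by exact_mod_cast hN) (slash_mdiff h γ) (fun z w hw => slash_per h γ z w hw) (h.zero γ)

end P004N.H449
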