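import Vale.Agent.P004N.H449.An2
import Vale.Agent.P004H.H924.Tau
import Vale.Agent.P004N.H974.Iface

/-!
# P004N, T3b: from a symmetric functional equation to the sharp mean value
-/

open Real MeasureTheory Set Filter Topology Asymptotics

namespace P004N.H449

open Vale.Agent.P004.H26.H392 (W Wt Dat W_nonneg UU UU_diff UU_Wt lseries_eq)

variable {κ : ℝ} {b : ℕ → ℝ} {c : ℝ}

/-- `(s - 1) B(s)`, entire -/
noncomputable def gg (hκ : 0 < κ) (hb : Dat b) (hc : FEK κ b c) (s : ℂ) : ℂ :=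
  (κ : ℂ) ^ (-s) * EE hκ hb hc s

/-- `B(s) - V / (s - 1)` -/
noncomputable def RR (hκ : 0 < κ) (hb : Dat b) (hc : FEK κ b c) : ℂ → ℂ := dslope (gg hκ hb hc) 1

/-- the residue -/
noncomputable def VV (κ c : ℝ) : ℝ := 8 * π ^ 3 * c / κ

theorem gg_diff (hκ : 0 < κ) (hb : Dat b) (hc : FEK κ b c) : Differentiable ℂ (gg hκ hb hc) := by
  unfold gg
  refine Differentiable.mul ?_ (EE_diff _ _ _)
  refine (differentiable_neg.const_cpow (Or.inl ?_))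
  exact_mod_cast hκ.ne'

theorem UU_one : UU 1 = 8 * (π : ℂ) ^ 3 := by
  unfold UU
  rw [Complex.cpow_one]
  have h1 : Complex.Gamma (1 + 1) = 1 := by
    rw [Complex.Gamma_add_one 1 one_ne_zero, Complex.Gamma_one, mul_one]
  have h2 : ((4 * π : ℝ) : ℂ) ^ ((1 : ℂ) + 1) = ((4 * π : ℝ) : ℂ) ^ 2 := by
    rw [show (1 : ℂ) + 1 = ((2 : ℕ) : ℂ) by norm_num, Complex.cpow_natCast]
  rw [h1, h2]
  push_cast
  ring

theorem gg_one (hκ : 0 < κ) (hb : Dat b) (hc : FEK κ b c) : gg hκ hb hc 1 = (VV κ c : ℂ) := by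
  have hκ' : (κ : ℂ) ≠ 0 := by exact_mod_cast hκ.ne'
  unfold gg
  rw [EE_one, UU_one, Complex.cpow_neg_one]
  unfold VV
  push_cast
  field_simp

theorem gg_eq (hκ : 0 < κ) (hb : Dat b) (hc : FEK κ b c) {s : ℂ} (hs : 1 < s.re) :
    gg hκ hb hc s = (s - 1) * LSeries (fun n => (b n : ℂ)) s := by
  have hκ' : (κ : ℂ) ≠ 0 := by exact_mod_cast hκ.ne'
  have h1 : (κ : ℂ) ^ s ≠ 0 := by
    intro h0
    rw [Complex.cpow_eq_zero_iff] at h0
    exact hκ' h0.1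
  unfold gg
  rw [EE_eq _ _ _ hs, Complex.cpow_neg]
  field_simp

theorem RR_diff (hκ : 0 < κ) (hb : Dat b) (hc : FEK κ b c) :
    DifferentiableOn ℂ (RR hκ hb hc) {s | 0 < s.re} := by
  have hopen : IsOpen {s : ℂ | 0 < s.re} := isOpen_lt continuous_const Complex.continuous_re
  have h1 : {s : ℂ | 0 < s.re} ∈ 𝓝 (1 : ℂ) := hopen.mem_nhds (by simp)
  unfold RR
  rw [Complex.differentiableOn_dslope h1]
  exact (gg_diff hκ hb hc).differentiableOn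

theorem RR_eq (hκ : 0 < κ) (hb : Dat b) (hc : FEK κ b c) {s : ℂ} (hs : 1 < s.re) :
    RR hκ hb hc s = LSeries (fun n => (b n : ℂ)) s - VV κ c / (s - 1) := by
  have hs1 : s ≠ 1 := by
    rintro rfl
    simp at hs
  have h2 : s - 1 ≠ 0 := sub_ne_zero.2 hs1
  unfold RR
  rw [dslope_of_ne _ hs1, slope_def_field, gg_one, gg_eq hκ hb hc hs]
  field_simp

theorem gg_bound (hκ : 0 < κ) (hb : Dat b) (hc : FEK κ b c) : ∃ M : ℝ, 0 ≤ M ∧ ∀ s : ℂ,
    3 / 5 ≤ s.re → s.re ≤ 3 / 2 → ‖gg hκ hb hc s‖ ≤ M * (1 + ‖s‖) ^ 5 := by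
  obtain ⟨M, hM, hE⟩ := EE_bound hκ hb hc
  refine ⟨32 * ((κ ^ (-(3 / 5) : ℝ) + κ ^ (-(3 / 2) : ℝ)) * M), by positivity, fun s h1 h2 => ?_⟩
  have h6 : ‖s + 2‖ ≤ 2 * (1 + ‖s‖) := by
    have := norm_add_le s 2
    rw [Complex.norm_ofNat] at this
    have := norm_nonneg s
    linarith
  have h3 : ‖(κ : ℂ) ^ (-s)‖ ≤ κ ^ (-(3 / 5) : ℝ) + κ ^ (-(3 / 2) : ℝ) := by
    rw [Complex.norm_cpow_eq_rpow_re_of_pos hκ, Complex.neg_re]
    have p1 : 0 < κ ^ (-(3 / 5) : ℝ) := by positivity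
    have p2 : 0 < κ ^ (-(3 / 2) : ℝ) := by positivity
    rcases le_total 1 κ with h | h
    · have := Real.rpow_le_rpow_of_exponent_le h (by linarith : -s.re ≤ -(3 / 5))
      linarith
    · have := Real.rpow_le_rpow_of_exponent_ge hκ h (by linarith : -(3 / 2) ≤ -s.re)
      linarith
  have h4 := hE s (by linarith) h2
  unfold gg
  rw [norm_mul]
  calc ‖(κ : ℂ) ^ (-s)‖ * ‖EE hκ hb hc s‖
      ≤ (κ ^ (-(3 / 5) : ℝ) + κ ^ (-(3 / 2) : ℝ)) * (M * ‖s + 2‖ ^ 5) := by gcongr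
    _ ≤ (κ ^ (-(3 / 5) : ℝ) + κ ^ (-(3 / 2) : ℝ)) * (M * (2 * (1 + ‖s‖)) ^ 5) := by gcongr
    _ = _ := by ring

/-- **the polynomial bound for the remainder** -/
theorem RR_bound (hκ : 0 < κ) (hb : Dat b) (hc : FEK κ b c) : ∃ K : ℝ, 0 ≤ K ∧ ∀ s : ℂ,
    3 / 5 ≤ s.re → s.re ≤ 3 / 2 → ‖RR hκ hb hc s‖ ≤ K * (1 + ‖s‖) ^ 5 := by
  obtain ⟨M, hM, hg⟩ := gg_bound hκ hb hc
  have hcont : ContinuousOn (RR hκ hb hc) (Metric.closedBall 1 (1 / 4)) := by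
    refine (RR_diff hκ hb hc).continuousOn.mono fun s hs => ?_
    rw [Metric.mem_closedBall, dist_eq_norm] at hs
    have := (Complex.abs_re_le_norm (s - 1)).trans hs
    rw [Complex.sub_re, Complex.one_re, abs_le] at this
    simp only [Set.mem_ofPred_eq]
    linarith [this.1]
  obtain ⟨C, hC⟩ := (isCompact_closedBall (1 : ℂ) (1 / 4)).exists_bound_of_continuousOn hcont
  refine ⟨4 * (M + ‖gg hκ hb hc 1‖) + |C|, by positivity, fun s h1 h2 => ?_⟩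
  have hs5 : 1 ≤ (1 + ‖s‖) ^ 5 := one_le_pow₀ (by linarith [norm_nonneg s])
  have hC0 : 0 ≤ |C| := abs_nonneg C
  have hg0 : 0 ≤ ‖gg hκ hb hc 1‖ := norm_nonneg _
  by_cases hd : ‖s - 1‖ ≤ 1 / 4
  · have := hC s (by rwa [Metric.mem_closedBall, dist_eq_norm])
    calc ‖RR hκ hb hc s‖ ≤ |C| * 1 := by
          rw [mul_one]
          exact this.trans (le_abs_self _)
      _ ≤ (4 * (M + ‖gg hκ hb hc 1‖) + |C|) * (1 + ‖s‖) ^ 5 := by
          gcongr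
          linarith
  · push Not at hd
    have hs1 : s ≠ 1 := by
      rintro rfl
      simp at hd
      linarith
    unfold RR
    rw [dslope_of_ne _ hs1, slope_def_field, norm_div, div_le_iff₀ (by linarith)]
    have h3 := hg s h1 h2
    calc ‖gg hκ hb hc s - gg hκ hb hc 1‖ ≤ ‖gg hκ hb hc s‖ + ‖gg hκ hb hc 1‖ := norm_sub_le _ _
      _ ≤ M * (1 + ‖s‖) ^ 5 + ‖gg hκ hb hc 1‖ * (1 + ‖s‖) ^ 5 := by
          gcongr
          exact le_mul_of_one_le_right hg0 hs5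
      _ = (M + ‖gg hκ hb hc 1‖) * (1 + ‖s‖) ^ 5 := by ring
      _ ≤ (4 * (M + ‖gg hκ hb hc 1‖) + |C|) * (1 + ‖s‖) ^ 5 * (1 / 4) := by
          have : 0 ≤ |C| * (1 + ‖s‖) ^ 5 := by positivity
          nlinarith
      _ ≤ (4 * (M + ‖gg hκ hb hc 1‖) + |C|) * (1 + ‖s‖) ^ 5 * ‖s - 1‖ := by gcongr

/-- **the sharp mean value** -/
theorem pfSym : StSym := by
  intro b κ c hκ hc hb0 hz hsum hfe
  have hb : Dat b := ⟨hb0, hz, hsum⟩
  have hF : FEK κ b c := hfe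
  obtain ⟨K, hK, hbd⟩ := RR_bound hκ hb hF
  have hV : 0 < VV κ c := by
    unfold VV
    positivity
  obtain ⟨C, δ, hδ, hx⟩ := Vale.Agent.P004H.H924.tau b hb.nonneg
    (hb.summ (3 / 2) (by norm_num)) (VV κ c) hV.le (RR hκ hb hF)
    ((RR_diff hκ hb hF).mono fun s hs => by
      have h1 := hs.1
      show (0 : ℝ) < s.re
      linarith)
    (fun s hs => by
      have hs0 : s ≠ 0 := by
        rintro rfl
        norm_num at hs
      rw [RR_eq hκ hb hF (by rw [hs]; norm_num), lseries_eq hb hs0]) K hbd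
  exact ⟨C, δ, hδ, hx⟩

end P004N.H449
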